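import Mathlib

/-!
The space of covolume-one lattices and torus packets of maximal orders of totally real fields.
-/

namespace Vale.Agent.P007

open NumberField
open scoped nonZeroDivisors MatrixGroups

/-- `SL_n(ℝ)`. -/
abbrev G (n : ℕ) : Type := Matrix.SpecialLinearGroup (Fin n) ℝ

/-- `SL_n(ℤ)` inside `SL_n(ℝ)`. -/
def gammaZ (n : ℕ) : Subgroup (G n) :=
  (Matrix.SpecialLinearGroup.map (n := Fin n) (Int.castRingHom ℝ)).range

/-- The space of covolume-one lattices, in the column convention `SL_n(ℝ)/SL_n(ℤ)`: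
the coset of `g` is the lattice spanned by the columns of `g`. -/
abbrev X (n : ℕ) : Type := G n ⧸ gammaZ n

noncomputable instance instMeasurableSpaceX (n : ℕ) : MeasurableSpace (X n) := borel (X n)

instance instBorelSpaceX (n : ℕ) : BorelSpace (X n) := ⟨rfl⟩

/-- The lattice `g ℤ^n` spanned by the columns of `g`. -/
def latticeOf {n : ℕ} (g : G n) : Set (Fin n → ℝ) :=
  Set.range fun k : Fin n → ℤ =>
    Matrix.mulVec (g : Matrix (Fin n) (Fin n) ℝ) (fun i => (k i : ℝ))

/-- The union of the orbits in the packet of the maximal order of `K` for the ordering `σ`: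
all covolume-one lattices `c ⬝ diag(w_j e^{u_j}) σ(I)` with `I` a nonzero fractional ideal,
`c > 0`, `w_j = ±1` and `∑ u_j = 0`. -/
def packet {n : ℕ} (K : Type) [Field K] [NumberField K] (σ : Fin n ≃ (K →+* ℝ)) : Set (X n) :=
  {x | ∃ g : G n, (g : X n) = x ∧
    ∃ I : FractionalIdeal (𝓞 K)⁰ K, I ≠ 0 ∧
    ∃ c : ℝ, 0 < c ∧
    ∃ w : Fin n → ℝ, (∀ j, w j = 1 ∨ w j = -1) ∧
    ∃ u : Fin n → ℝ, ∑ j, u j = 0 ∧
      latticeOf g = {v | ∃ a ∈ I, v = fun j => c * w j * Real.exp (u j) * σ j a}}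

/-- Invariance of a measure on `X n` under the action of all of `SL_n(ℝ)`. -/
def IsInvariant {n : ℕ} (m : MeasureTheory.Measure (X n)) : Prop :=
  ∀ (h : G n) (s : Set (X n)), MeasurableSet s → m ((fun x => h • x) ⁻¹' s) = m s

end Vale.Agent.P007
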