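import Mathlib

/-!
Totally real number fields of every composite degree `d * m` that contain a fixed
integral element of degree `d`, with discriminants divisible by arbitrary large primes.
-/

namespace Vale.Agent.P007

open Polynomial NumberField Module

/-- The polynomial `X (X - 2ℓ) ⋯ (X - 2ℓ(m-1)) + ℓ`. -/
noncomputable def gPoly (l m : ℕ) : ℤ[X] :=
  (∏ k ∈ Finset.range m, (X - C ((2 * l * k : ℕ) : ℤ))) + C (l : ℤ)

lemma gPoly_prod_monic (l m : ℕ) :
    (∏ k ∈ Finset.range m, (X - C ((2 * l * k : ℕ) : ℤ))).Monic :=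
  monic_prod_of_monic _ _ fun _ _ => monic_X_sub_C _

lemma gPoly_prod_natDegree (l m : ℕ) :
    (∏ k ∈ Finset.range m, (X - C ((2 * l * k : ℕ) : ℤ))).natDegree = m := by
  rw [natDegree_prod_of_monic _ _ (fun k _ => monic_X_sub_C _)]
  simp only [natDegree_X_sub_C, Finset.sum_const, Finset.card_range, smul_eq_mul, mul_one]

lemma gPoly_natDegree (l : ℕ) {m : ℕ} (hm : 1 ≤ m) : (gPoly l m).natDegree = m := by
  rw [gPoly, natDegree_add_eq_left_of_natDegree_lt, gPoly_prod_natDegree]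
  rw [natDegree_C, gPoly_prod_natDegree]
  omega

lemma gPoly_monic (l : ℕ) {m : ℕ} (hm : 1 ≤ m) : (gPoly l m).Monic := by
  rw [gPoly]
  refine (gPoly_prod_monic l m).add_of_left ?_
  refine degree_C_le.trans_lt ?_
  rw [degree_eq_natDegree (gPoly_prod_monic l m).ne_zero, gPoly_prod_natDegree]
  exact_mod_cast hm

lemma gPoly_coeff_zero (l : ℕ) {m : ℕ} (hm : 1 ≤ m) : (gPoly l m).coeff 0 = (l : ℤ) := by
  rw [coeff_zero_eq_eval_zero, gPoly, eval_add, eval_C, eval_prod]
  rw [Finset.prod_eq_zero (Finset.mem_range.2 hm) (by simp), zero_add]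

lemma gPoly_map_zmod (l m : ℕ) :
    (gPoly l m).map (Int.castRingHom (ZMod l)) = X ^ m := by
  simp [gPoly, Polynomial.map_prod]

lemma dvd_gPoly_coeff (l : ℕ) {m i : ℕ} (hi : i < m) : (l : ℤ) ∣ (gPoly l m).coeff i := by
  have h := congrArg (fun p : (ZMod l)[X] => p.coeff i) (gPoly_map_zmod l m)
  simp only [coeff_map, coeff_X_pow, if_neg hi.ne] at h
  exact (ZMod.intCast_zmod_eq_zero_iff_dvd _ l).1 h

lemma gPoly_aeval {R : Type*} [CommRing R] (l m : ℕ) (x : R) :
    aeval x (gPoly l m)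
      = (∏ k ∈ Finset.range m, (x - 2 * (l : R) * (k : R))) + (l : R) := by
  simp [gPoly, map_prod, map_ofNat]

/-- A real root between two consecutive points `(2j-1)ℓ`. -/
lemma gPoly_real_root_between {l m : ℕ} (hl : 2 ≤ l) (hm : 2 ≤ m) {j : ℕ} (hj : j < m) :
    ∃ r : ℝ, aeval r (gPoly l m) = 0 ∧
      (l : ℝ) * (2 * j - 1) < r ∧ r < (l : ℝ) * (2 * j + 1) := by
  set h : ℝ → ℝ := fun r => aeval r (gPoly l m) with hh
  have hl' : (2 : ℝ) ≤ l := by exact_mod_cast hl
  have key : ∀ i : ℕ, i ≤ m → 0 < (-1 : ℝ) ^ (m - i) * h ((l : ℝ) * (2 * i - 1)) := by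
    intro i hi
    let a : ℕ → ℝ := fun k => (l : ℝ) * (2 * i - 1) - 2 * (l : ℝ) * k
    have habs : (-1 : ℝ) ^ (m - i) * ∏ k ∈ Finset.range m, a k
        = ∏ k ∈ Finset.range m, |a k| := by
      rw [← Finset.prod_range_mul_prod_Ico a hi,
        ← Finset.prod_range_mul_prod_Ico (fun k => |a k|) hi, mul_left_comm]
      congr 1
      · refine Finset.prod_congr rfl fun k hk => ?_
        have : (k : ℝ) + 1 ≤ i := by exact_mod_cast Finset.mem_range.1 hk
        rw [abs_of_nonneg]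
        simp only [a]; nlinarith
      · rw [show (-1 : ℝ) ^ (m - i) = ∏ _k ∈ Finset.Ico i m, (-1 : ℝ) by simp,
          ← Finset.prod_mul_distrib]
        refine Finset.prod_congr rfl fun k hk => ?_
        have : (i : ℝ) ≤ k := by exact_mod_cast (Finset.mem_Ico.1 hk).1
        rw [abs_of_nonpos (by simp only [a]; nlinarith)]
        ring
    have hge : (l : ℝ) ^ m ≤ ∏ k ∈ Finset.range m, |a k| := by
      have : ∏ _k ∈ Finset.range m, (l : ℝ) = (l : ℝ) ^ m := by simp
      rw [← this]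
      refine Finset.prod_le_prod (fun k _ => by positivity) fun k _ => ?_
      rcases lt_or_ge k i with hk | hk
      · have : (k : ℝ) + 1 ≤ i := by exact_mod_cast hk
        rw [abs_of_nonneg (by simp only [a]; nlinarith)]
        simp only [a]; nlinarith
      · have : (i : ℝ) ≤ k := by exact_mod_cast hk
        rw [abs_of_nonpos (by simp only [a]; nlinarith)]
        simp only [a]; nlinarith
    have hlt : (l : ℝ) < (l : ℝ) ^ m := by
      calc (l : ℝ) < (l : ℝ) ^ 2 := by nlinarith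
        _ ≤ (l : ℝ) ^ m := pow_le_pow_right₀ (by linarith) hm
    simp only [hh, gPoly_aeval, mul_add]
    change 0 < (-1 : ℝ) ^ (m - i) * (∏ k ∈ Finset.range m, a k) + _
    rw [habs]
    rcases neg_one_pow_eq_or ℝ (m - i) with hs | hs <;> rw [hs] <;> nlinarith
  have k1 := key j hj.le
  have k2 := key (j + 1) hj
  have hpt : (l : ℝ) * (2 * ((j + 1 : ℕ) : ℝ) - 1) = (l : ℝ) * (2 * j + 1) := by
    push_cast; ring
  rw [hpt] at k2
  have hs : (-1 : ℝ) ^ (m - j) = -(-1 : ℝ) ^ (m - (j + 1)) := by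
    rw [show m - j = (m - (j + 1)) + 1 by omega, pow_succ]; ring
  rw [hs] at k1
  have hle : (l : ℝ) * (2 * j - 1) ≤ (l : ℝ) * (2 * j + 1) := by nlinarith
  have hc : Continuous h := by
    simp only [hh, gPoly_aeval]
    fun_prop
  rcases neg_one_pow_eq_or ℝ (m - (j + 1)) with hp | hp <;> rw [hp] at k1 k2
  · obtain ⟨r, hr, hr0⟩ := intermediate_value_Ioo hle hc.continuousOn
      (show (0 : ℝ) ∈ Set.Ioo (h ((l : ℝ) * (2 * j - 1))) (h ((l : ℝ) * (2 * j + 1))) from
        ⟨by linarith, by linarith⟩)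
    exact ⟨r, hr0, hr.1, hr.2⟩
  · obtain ⟨r, hr, hr0⟩ := intermediate_value_Ioo' hle hc.continuousOn
      (show (0 : ℝ) ∈ Set.Ioo (h ((l : ℝ) * (2 * j + 1))) (h ((l : ℝ) * (2 * j - 1))) from
        ⟨by linarith, by linarith⟩)
    exact ⟨r, hr0, hr.1, hr.2⟩

/-- All complex roots of `gPoly` are real. -/
lemma gPoly_root_real {l m : ℕ} (hl : 2 ≤ l) (hm : 2 ≤ m) {z : ℂ}
    (hz : aeval z (gPoly l m) = 0) : ∃ r : ℝ, z = (r : ℂ) := by
  classical
  choose r hr0 hrlo hrhi using fun j : Fin m => gPoly_real_root_between hl hm j.2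
  have hlpos : (0 : ℝ) < l := by exact_mod_cast (by omega : 0 < l)
  have hmono : StrictMono r := by
    intro a b hab
    have h1 : ((a : ℕ) : ℝ) + 1 ≤ ((b : ℕ) : ℝ) := by exact_mod_cast hab
    nlinarith [hrhi a, hrlo b]
  have hne : gPoly l m ≠ 0 := (gPoly_monic l (by omega)).ne_zero
  let S : Finset ℂ := Finset.univ.image fun j => ((r j : ℝ) : ℂ)
  have hS : S.card = m := by
    rw [Finset.card_image_of_injective _ (fun a b h => hmono.injective (Complex.ofReal_injective h))]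
    simp
  let T : Finset ℂ := (gPoly l m).rootSet ℂ |>.toFinset
  have hsub : S ⊆ T := by
    intro y hy
    obtain ⟨j, -, rfl⟩ := Finset.mem_image.1 hy
    refine Set.mem_toFinset.2 ((mem_rootSet_of_ne hne).2 ?_)
    have : ((r j : ℝ) : ℂ) = algebraMap ℝ ℂ (r j) := rfl
    rw [this, aeval_algebraMap_apply, hr0 j, map_zero]
  have hT : T.card ≤ m := by
    have := ncard_rootSet_le (gPoly l m) ℂ
    rw [Set.ncard_eq_toFinset_card', gPoly_natDegree l (by omega : 1 ≤ m)] at this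
    exact this
  have hzT : z ∈ T := Set.mem_toFinset.2 ((mem_rootSet_of_ne hne).2 hz)
  rw [← Finset.eq_of_subset_of_card_le hsub (by omega)] at hzT
  obtain ⟨j, -, hj⟩ := Finset.mem_image.1 hzT
  exact ⟨r j, hj.symm⟩

/-- A prime not dividing the discriminant generates a radical ideal. -/
lemma dvd_of_dvd_pow {K : Type*} [Field K] [NumberField K] {l : ℕ} (hl : l.Prime)
    (hd : ¬ (l : ℤ) ∣ discr K) {y : 𝓞 K} {k : ℕ} (hy : (l : 𝓞 K) ∣ y ^ k) :
    (l : 𝓞 K) ∣ y := by
  classical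
  have := Fact.mk hl
  let b := RingOfIntegers.basis K
  let φ := Int.castRingHom (ZMod l)
  let c : Free.ChooseBasisIndex ℤ (𝓞 K) → ℤ := fun i => b.repr y i
  let L : 𝓞 K →+* Matrix (Free.ChooseBasisIndex ℤ (𝓞 K))
      (Free.ChooseBasisIndex ℤ (𝓞 K)) (ZMod l) :=
    φ.mapMatrix.comp (Algebra.leftMulMatrix b).toRingHom
  have htr : ∀ z, φ (Algebra.trace ℤ (𝓞 K) (y * z)) = 0 := by
    intro z
    have hnil : IsNilpotent (L (y * z)) := by
      refine ⟨k, ?_⟩
      obtain ⟨q, hq⟩ := hy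
      rw [← map_pow, mul_pow, hq, mul_assoc, map_mul, map_natCast]
      have : ((l : Matrix (Free.ChooseBasisIndex ℤ (𝓞 K))
        (Free.ChooseBasisIndex ℤ (𝓞 K)) (ZMod l))) = 0 := by
        rw [← map_natCast (algebraMap (ZMod l)
          (Matrix (Free.ChooseBasisIndex ℤ (𝓞 K)) (Free.ChooseBasisIndex ℤ (𝓞 K)) (ZMod l))) l,
          ZMod.natCast_self, map_zero]
      rw [this, zero_mul]
    have := (Matrix.isNilpotent_trace_of_isNilpotent hnil).eq_zero
    rw [Algebra.trace_eq_matrix_trace b]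
    exact (AddMonoidHom.map_trace φ.toAddMonoidHom _).trans this
  have hdet : ((Algebra.traceMatrix ℤ b).map φ).det ≠ 0 := by
    rw [← RingHom.mapMatrix_apply, ← RingHom.map_det, ← Algebra.discr_def, discr_eq_discr]
    intro h
    exact hd ((ZMod.intCast_zmod_eq_zero_iff_dvd _ l).1 h)
  have hv : Matrix.vecMul (fun i => φ (c i)) ((Algebra.traceMatrix ℤ b).map φ) = 0 := by
    funext j
    have h1 : Algebra.trace ℤ (𝓞 K) (y * b j)
        = ∑ i, c i * Algebra.traceMatrix ℤ b i j := by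
      conv_lhs => rw [← b.sum_repr y]
      simp only [c, Finset.sum_mul, map_sum, smul_mul_assoc, map_zsmul, smul_eq_mul,
        Algebra.traceMatrix_apply, Algebra.traceForm_apply]
    have h2 := htr (b j)
    rw [h1, map_sum] at h2
    simpa [Matrix.vecMul, dotProduct, map_mul] using h2
  have h0 := Matrix.eq_zero_of_vecMul_eq_zero hdet hv
  rw [← b.sum_repr y]
  refine Finset.dvd_sum fun i _ => ?_
  obtain ⟨q, hq⟩ := (ZMod.intCast_zmod_eq_zero_iff_dvd _ l).1 (congrFun h0 i)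
  refine ⟨(q : 𝓞 K) * b i, ?_⟩
  simp only [zsmul_eq_mul]
  change ((c i : ℤ) : 𝓞 K) * b i = _
  rw [hq]; push_cast; ring

lemma not_natPrime_dvd_one {K : Type*} [Field K] [NumberField K] {l : ℕ} (hl : l.Prime) :
    ¬ (l : 𝓞 K) ∣ 1 := by
  intro h
  have h1 := isUnit_iff_dvd_one.2 h |>.map (Algebra.norm ℤ : 𝓞 K →* ℤ)
  rw [← map_natCast (algebraMap ℤ (𝓞 K)) l, Algebra.norm_algebraMap, isUnit_pow_iff] at h1
  · exact Nat.prime_iff_prime_int.1 hl |>.not_isUnit h1
  · exact finrank_pos.ne'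

/-- A prime dividing the constant and `m ≥ 2` forces ramification. -/
lemma dvd_discr_of_root {K : Type*} [Field K] [NumberField K] {l m : ℕ} (hl : l.Prime)
    (hm : 2 ≤ m) {x : K} (hx : aeval x (gPoly l m) = 0) : (l : ℤ) ∣ discr K := by
  by_contra hd
  have hint : IsIntegral ℤ x := ⟨gPoly l m, gPoly_monic l (by omega), hx⟩
  let X0 : 𝓞 K := ⟨x, hint⟩
  have hX : aeval X0 (gPoly l m) = 0 := by
    apply RingOfIntegers.coe_injective
    rw [map_zero, ← aeval_algebraMap_apply]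
    exact hx
  have hdvd : (l : 𝓞 K) ∣ X0 ^ m := by
    have h := hX
    rw [aeval_eq_sum_range, gPoly_natDegree l (by omega : 1 ≤ m), Finset.sum_range_succ] at h
    have hlead : (gPoly l m).coeff m = 1 := by
      have := (gPoly_monic l (by omega : 1 ≤ m)).coeff_natDegree
      rwa [gPoly_natDegree l (by omega : 1 ≤ m)] at this
    rw [hlead, one_smul] at h
    have hs : (l : 𝓞 K) ∣ ∑ i ∈ Finset.range m, (gPoly l m).coeff i • X0 ^ i := by
      refine Finset.dvd_sum fun i hi => ?_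
      obtain ⟨q, hq⟩ := dvd_gPoly_coeff l (Finset.mem_range.1 hi)
      exact ⟨(q : 𝓞 K) * X0 ^ i, by rw [zsmul_eq_mul, hq]; push_cast; ring⟩
    rw [eq_neg_of_add_eq_zero_right h]
    exact hs.neg_right
  obtain ⟨z, hz⟩ := dvd_of_dvd_pow hl hd hdvd
  rw [gPoly_aeval, hz] at hX
  have hp : ∏ k ∈ Finset.range m, ((l : 𝓞 K) * z - 2 * (l : 𝓞 K) * (k : 𝓞 K))
      = (l : 𝓞 K) ^ m * ∏ k ∈ Finset.range m, (z - 2 * (k : 𝓞 K)) := by
    have : (l : 𝓞 K) ^ m = ∏ _k ∈ Finset.range m, (l : 𝓞 K) := by simp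
    rw [this, ← Finset.prod_mul_distrib]
    exact Finset.prod_congr rfl fun k _ => by ring
  rw [hp, show m = (m - 1) + 1 by omega, pow_succ] at hX
  have h2 : (l : 𝓞 K) * ((l : 𝓞 K) ^ (m - 1)
      * (∏ k ∈ Finset.range (m - 1 + 1), (z - 2 * (k : 𝓞 K))) + 1) = 0 := by
    linear_combination hX
  rcases mul_eq_zero.1 h2 with h | h
  · exact Nat.cast_ne_zero.2 hl.ne_zero h
  · apply not_natPrime_dvd_one (K := K) hl
    rw [eq_neg_of_add_eq_zero_right h]
    exact ((dvd_pow_self _ (by omega : m - 1 ≠ 0)).mul_right _).neg_right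

lemma exists_prime_over {F : Type*} [Field F] [NumberField F] {l : ℕ} (hl : l.Prime)
    (hd : ¬ (l : ℤ) ∣ discr F) :
    ∃ P : Ideal (𝓞 F), P.IsPrime ∧ (l : 𝓞 F) ∈ P ∧ (l : 𝓞 F) ∉ P ^ 2 := by
  set L : Ideal (𝓞 F) := Ideal.span {(l : 𝓞 F)} with hL
  have hne : L ≠ ⊤ := by
    rw [hL, Ne, Ideal.span_singleton_eq_top, isUnit_iff_dvd_one]
    exact not_natPrime_dvd_one hl
  obtain ⟨P, hP, hLP⟩ := Ideal.exists_le_maximal L hne
  refine ⟨P, hP.isPrime, hLP (Ideal.mem_span_singleton_self _), fun h2 => ?_⟩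
  have hLne : L ≠ ⊥ := by
    rw [hL, Ne, Ideal.span_singleton_eq_bot]
    exact Nat.cast_ne_zero.2 hl.ne_zero
  have hle : L ≤ P ^ 2 := by
    rw [hL, Ideal.span_le, Set.singleton_subset_iff]; exact h2
  obtain ⟨J, hJ⟩ := Ideal.dvd_iff_le.2 hle
  -- every element of `P * J` has square in `L`, hence lies in `L`
  have hmem : ∀ z : 𝓞 F, z ∈ L ↔ (l : 𝓞 F) ∣ z := fun z => Ideal.mem_span_singleton
  clear_value L
  have hPJ : P * J ≤ L := by
    intro y hy
    refine (hmem y).2 (dvd_of_dvd_pow hl hd (k := 2) ((hmem _).1 ?_))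
    have h3 : y * y ∈ (P * J) * (P * J) := Ideal.mul_mem_mul hy hy
    rw [show (P * J) * (P * J) = L * J by rw [hJ]; ring] at h3
    rw [pow_two]
    exact (Ideal.mul_le_left : L * J ≤ L) h3
  have heq : L * 1 = L * P := by
    have hle' : P * J = L := le_antisymm hPJ
      (by rw [hJ, pow_two, mul_assoc]; exact (Ideal.mul_le_right : P * (P * J) ≤ P * J))
    calc L * 1 = L := mul_one L
      _ = P ^ 2 * J := hJ
      _ = (P * J) * P := by ring
      _ = L * P := by rw [hle']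
  have := mul_left_cancel₀ hLne heq
  exact hP.ne_top (by rw [← this, Ideal.one_eq_top])

/-- Extension step. -/
lemma exists_extension (F : Type) [Field F] [NumberField F] [IsTotallyReal F] (l m : ℕ)
    (hl : l.Prime) (hm : 2 ≤ m) (hd : ¬ (l : ℤ) ∣ discr F) :
    ∃ (K : Type) (_ : Field K) (_ : NumberField K) (_ : F →+* K),
      IsTotallyReal K ∧ finrank ℚ K = finrank ℚ F * m ∧ (l : ℤ) ∣ discr K ∧
        ∃ x : K, aeval x (gPoly l m) = 0 := by
  obtain ⟨P, hP, hlP, hlP2⟩ := exists_prime_over hl hd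
  set G : (𝓞 F)[X] := (gPoly l m).map (algebraMap ℤ (𝓞 F)) with hG
  have hGm : G.Monic := (gPoly_monic l (by omega)).map _
  have hGdeg : G.natDegree = m := by
    rw [hG, (gPoly_monic l (by omega : 1 ≤ m)).natDegree_map, gPoly_natDegree l (by omega : 1 ≤ m)]
  have hGe : G.IsEisensteinAt P := by
    refine ⟨?_, ?_, ?_⟩
    · rw [hGm.leadingCoeff]; exact fun h => hP.ne_top ((Ideal.eq_top_iff_one _).2 h)
    · intro i hi
      rw [hGdeg] at hi
      obtain ⟨q, hq⟩ := dvd_gPoly_coeff l hi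
      rw [hG, coeff_map, hq, map_mul, map_natCast]
      exact Ideal.mul_mem_right _ _ hlP
    · rw [hG, coeff_map, gPoly_coeff_zero l (by omega : 1 ≤ m), map_natCast]; exact hlP2
  have hGirr : Irreducible G := hGe.irreducible hP hGm.isPrimitive (by omega)
  set g : F[X] := G.map (algebraMap (𝓞 F) F) with hg
  have hgirr : Irreducible g := hGm.irreducible_iff_irreducible_map_fraction_map.1 hGirr
  have hgne : g ≠ 0 := hgirr.ne_zero
  have := Fact.mk hgirr
  have hcz : CharZero (AdjoinRoot g) :=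
    charZero_of_injective_algebraMap (algebraMap F (AdjoinRoot g)).injective
  have : FiniteDimensional F (AdjoinRoot g) := (AdjoinRoot.powerBasis hgne).finite
  have : IsScalarTower ℚ F (AdjoinRoot g) :=
    IsScalarTower.of_algebraMap_eq' (Subsingleton.elim _ _)
  have : FiniteDimensional ℚ (AdjoinRoot g) := FiniteDimensional.trans ℚ F (AdjoinRoot g)
  have hnf : NumberField (AdjoinRoot g) := { }
  have hroot : aeval (AdjoinRoot.root g) (gPoly l m) = 0 := by
    have h := AdjoinRoot.eval₂_root g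
    simp only [hg, hG, Polynomial.map_map, eval₂_map] at h
    rw [aeval_def]
    refine Eq.trans ?_ h
    exact congrArg (fun ψ : ℤ →+* AdjoinRoot g => eval₂ ψ (AdjoinRoot.root g) (gPoly l m))
      (RingHom.ext_int _ _)
  have hfr : finrank ℚ (AdjoinRoot g) = finrank ℚ F * m := by
    rw [← finrank_mul_finrank ℚ F (AdjoinRoot g), (AdjoinRoot.powerBasis hgne).finrank,
      AdjoinRoot.powerBasis_dim, hg, hGm.natDegree_map, hGdeg]
  refine ⟨AdjoinRoot g, inferInstance, hnf, AdjoinRoot.of g, ⟨fun v => ?_⟩, hfr,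
    dvd_discr_of_root hl hm hroot, AdjoinRoot.root g, hroot⟩
  have hreal : ∀ φ : AdjoinRoot g →+* ℂ, ComplexEmbedding.IsReal φ := by
    intro φ
    rw [ComplexEmbedding.isReal_iff]
    have hF : ∀ a : F, (starRingEnd ℂ) (φ (AdjoinRoot.of g a)) = φ (AdjoinRoot.of g a) := by
      intro a
      exact RingHom.congr_fun (IsTotallyReal.complexEmbedding_isReal (φ.comp (AdjoinRoot.of g))) a
    have hr : (starRingEnd ℂ) (φ (AdjoinRoot.root g)) = φ (AdjoinRoot.root g) := by
      have : aeval (φ (AdjoinRoot.root g)) (gPoly l m) = 0 := by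
        have := aeval_algHom_apply (φ.toIntAlgHom) (AdjoinRoot.root g) (gPoly l m)
        rw [hroot, map_zero] at this
        exact this
      obtain ⟨r, hr⟩ := gPoly_root_real hl.two_le hm this
      rw [hr, Complex.conj_ofReal]
    refine RingHom.ext fun y => ?_
    change (starRingEnd ℂ) (φ y) = φ y
    induction y using AdjoinRoot.induction_on with
    | ih p =>
      induction p using Polynomial.induction_on' with
      | add p q hp hq => simp only [map_add, hp, hq]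
      | monomial k a =>
        rw [← C_mul_X_pow_eq_monomial, map_mul, map_pow, AdjoinRoot.mk_C, AdjoinRoot.mk_X,
          map_mul, map_mul, map_pow, map_pow, hF, hr]
  rw [← InfinitePlace.mk_embedding v, InfinitePlace.isReal_mk_iff]
  exact hreal _

/-- A totally real field of degree `d` having a root of `gPoly 2 d`. -/
lemma exists_base (d : ℕ) (hd : 2 ≤ d) :
    ∃ (F : Type) (_ : Field F) (_ : NumberField F),
      IsTotallyReal F ∧ finrank ℚ F = d ∧ ∃ x : F, aeval x (gPoly 2 d) = 0 := by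
  obtain ⟨F, i1, i2, -, hreal, hfr, -, hx⟩ := exists_extension ℚ 2 d Nat.prime_two hd (by
    rw [Rat.numberField_discr]; norm_num)
  exact ⟨F, i1, i2, hreal, by rw [hfr, finrank_self, one_mul], hx⟩

/-- The family of fields. -/
lemma exists_family (n : ℕ) (hn : 4 ≤ n) (hnp : ¬ n.Prime) :
    ∃ (d : ℕ) (_ : 2 ≤ d) (K : ℕ → Type) (_ : ∀ i, Field (K i)) (_ : ∀ i, NumberField (K i)),
      (∀ i, IsTotallyReal (K i) ∧ finrank ℚ (K i) = n) ∧
      Filter.Tendsto (fun i => |discr (K i)|) Filter.atTop Filter.atTop ∧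
      ∀ i, ∃ x : K i, aeval x (gPoly 2 d) = 0 := by
  obtain ⟨d, hdn, hd2, hdlt⟩ := Nat.exists_dvd_of_not_prime2 (by omega : 2 ≤ n) hnp
  obtain ⟨m, hm⟩ := hdn
  have hm2 : 2 ≤ m := by
    rcases m with _ | _ | m
    · omega
    · omega
    · omega
  obtain ⟨F, iF, iFn, hFreal, hFd, xF, hxF⟩ := exists_base d hd2
  have hpr : ∀ i : ℕ, ∃ p : ℕ, i + (discr F).natAbs + 1 ≤ p ∧ p.Prime :=
    fun i => Nat.exists_infinite_primes _
  choose p hpge hp using hpr
  have hnd : ∀ i, ¬ (p i : ℤ) ∣ discr F := by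
    intro i h
    have h1 : p i ∣ (discr F).natAbs := Int.natCast_dvd.1 h
    have h0 : (discr F).natAbs ≠ 0 := Int.natAbs_ne_zero.2 (discr_ne_zero F)
    have := Nat.le_of_dvd (Nat.pos_of_ne_zero h0) h1
    have := hpge i
    omega
  choose K iK iKn e hreal hfr hdiv hx using
    fun i => exists_extension F (p i) m (hp i) hm2 (hnd i)
  refine ⟨d, hd2, K, iK, iKn, fun i => ⟨hreal i, by rw [hfr i, hFd, ← hm]⟩, ?_, fun i =>
    ⟨e i xF, ?_⟩⟩
  · refine Filter.tendsto_atTop_mono' Filter.atTop ?_ tendsto_natCast_atTop_atTop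
    filter_upwards with i
    have h1 : p i ∣ (discr (K i)).natAbs := Int.natCast_dvd.1 (hdiv i)
    have h0 : (discr (K i)).natAbs ≠ 0 := Int.natAbs_ne_zero.2 (discr_ne_zero _)
    have := Nat.le_of_dvd (Nat.pos_of_ne_zero h0) h1
    have := hpge i
    rw [Int.abs_eq_natAbs]
    exact_mod_cast (by omega : i ≤ (discr (K i)).natAbs)
  · have := aeval_algHom_apply ((e i).toIntAlgHom) xF (gPoly 2 d)
    rw [hxF, map_zero] at this
    exact this

/-- No root of `gPoly 2 d` is an integer. -/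
lemma gPoly_two_no_int_root {d : ℕ} (hd : 2 ≤ d) (k : ℤ) :
    aeval (k : ℝ) (gPoly 2 d) ≠ 0 := by
  intro h
  have h' : aeval k (gPoly 2 d) = 0 := by
    have := aeval_algebraMap_apply ℝ k (gPoly 2 d)
    simp only [algebraMap_int_eq, eq_intCast] at this
    rw [this] at h
    exact_mod_cast h
  rw [gPoly_aeval] at h'
  have hk : (2 : ℤ) ∣ k := by
    have h1 : (2 : ℤ) ∣ ∏ j ∈ Finset.range d, (k - 2 * ((2 : ℕ) : ℤ) * (j : ℤ)) :=
      ⟨-1, by push_cast at h' ⊢; linarith⟩
    obtain ⟨j, -, hj⟩ := (Int.prime_two.dvd_finsetProd_iff _).1 h1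
    push_cast at hj
    omega
  obtain ⟨z, rfl⟩ := hk
  have h4 : (4 : ℤ) ∣ ∏ j ∈ Finset.range d, (2 * z - 2 * ((2 : ℕ) : ℤ) * (j : ℤ)) := by
    have h2 : ∀ j ∈ Finset.range d, (2 : ℤ) ∣ 2 * z - 2 * ((2 : ℕ) : ℤ) * (j : ℤ) :=
      fun j _ => ⟨z - 2 * (j : ℤ), by push_cast; ring⟩
    have h3 := Finset.prod_dvd_prod_of_dvd _ _ h2
    rw [Finset.prod_const, Finset.card_range] at h3
    exact (show (4 : ℤ) ∣ 2 ^ d from (pow_dvd_pow (2 : ℤ) hd)).trans h3
  push_cast at h' h4
  omega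

end Vale.Agent.P007
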