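import Mathlib
import Vale.Agent.P007.Defs
import Vale.Agent.P007.Fields

/-!
Torus packets of fields with a fixed subfield element are trapped in a closed proper subset.
-/

namespace Vale.Agent.P007

open NumberField Module Polynomial MeasureTheory
open scoped nonZeroDivisors MatrixGroups

variable {n : ℕ}

lemma isClosed_intMatrices :
    IsClosed {M : Matrix (Fin n) (Fin n) ℝ | ∀ i k, M i k ∈ Set.range ((↑) : ℤ → ℝ)} := by
  simp only [Set.ofPred_forall]
  exact isClosed_iInter fun i => isClosed_iInter fun k =>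
    Int.isClosedEmbedding_coe_real.isClosed_range.preimage
      ((continuous_apply k).comp (continuous_apply i))

lemma continuous_coe : Continuous fun g : G n => (g : Matrix (Fin n) (Fin n) ℝ) :=
  continuous_subtype_val

instance isClosed_gammaZ : IsClosed (gammaZ n : Set (G n)) := by
  have h : (gammaZ n : Set (G n)) = (fun g : G n => (g : Matrix (Fin n) (Fin n) ℝ)) ⁻¹'
      {M | ∀ i k, M i k ∈ Set.range ((↑) : ℤ → ℝ)} := by
    ext g
    constructor
    · rintro ⟨γ, rfl⟩ i k
      exact ⟨(γ : Matrix (Fin n) (Fin n) ℤ) i k, rfl⟩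
    · intro hg
      choose M hM using hg
      have hdet : (Matrix.of M).det = 1 := by
        have h1 := (Int.castRingHom ℝ).map_det (Matrix.of M)
        have h2 : (Int.castRingHom ℝ).mapMatrix (Matrix.of M)
            = (g : Matrix (Fin n) (Fin n) ℝ) := by
          ext i k; exact hM i k
        rw [h2, g.2] at h1
        exact_mod_cast (show ((Matrix.of M).det : ℝ) = 1 from h1)
      exact ⟨⟨Matrix.of M, hdet⟩, Subtype.ext (by ext i k; exact hM i k)⟩
  rw [h]
  exact isClosed_intMatrices.preimage continuous_coe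

instance instLocallyCompactG : LocallyCompactSpace (G n) := by
  have : LocallyCompactSpace (Matrix (Fin n) (Fin n) ℝ) :=
    inferInstanceAs (LocallyCompactSpace (Fin n → Fin n → ℝ))
  exact Matrix.SpecialLinearGroup.isClosedEmbedding_val.locallyCompactSpace

instance instSecondCountableG : SecondCountableTopology (G n) := by
  have : SecondCountableTopology (Matrix (Fin n) (Fin n) ℝ) :=
    inferInstanceAs (SecondCountableTopology (Fin n → Fin n → ℝ))
  exact Matrix.SpecialLinearGroup.isClosedEmbedding_val.isEmbedding.secondCountableTopology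

/-- The set in `SL_n(ℝ)` of bases whose lattice is stable under `diag t` for some
tuple `t` of roots of `P`. -/
def badSet (P : ℤ[X]) : Set (G n) :=
  {g | ∃ t : Fin n → ℝ, (∀ j, aeval (t j) P = 0) ∧ ∀ i k,
    ((g⁻¹ : G n) * Matrix.diagonal t * (g : Matrix (Fin n) (Fin n) ℝ)
      : Matrix (Fin n) (Fin n) ℝ) i k ∈ Set.range ((↑) : ℤ → ℝ)}

lemma isClosed_badSet (P : ℤ[X]) (hP : P ≠ 0) : IsClosed (badSet (n := n) P) := by
  have hfin : {t : Fin n → ℝ | ∀ j, aeval (t j) P = 0}.Finite := by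
    refine (Set.Finite.pi fun _ : Fin n => P.rootSet_finite ℝ).subset ?_
    intro t ht j _
    exact (mem_rootSet_of_ne hP).2 (ht j)
  have : badSet (n := n) P = ⋃ t ∈ {t : Fin n → ℝ | ∀ j, aeval (t j) P = 0},
      (fun g : G n => ((g⁻¹ : G n) : Matrix (Fin n) (Fin n) ℝ) * Matrix.diagonal t *
        (g : Matrix (Fin n) (Fin n) ℝ)) ⁻¹'
      {M | ∀ i k, M i k ∈ Set.range ((↑) : ℤ → ℝ)} := by
    ext g
    simp [badSet]
  rw [this]
  exact hfin.isClosed_biUnion fun t _ => isClosed_intMatrices.preimage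
    (((continuous_coe.comp continuous_inv).mul continuous_const).mul continuous_coe)

lemma badSet_mul_right (P : ℤ[X]) {g γ : G n} (hγ : γ ∈ gammaZ n) (hg : g ∈ badSet P) :
    g * γ ∈ badSet P := by
  obtain ⟨t, ht, h⟩ := hg
  obtain ⟨γ', rfl⟩ := hγ
  choose M hM using h
  refine ⟨t, ht, fun i k => ?_⟩
  let N : Matrix (Fin n) (Fin n) ℤ :=
    ((γ'⁻¹ : Matrix.SpecialLinearGroup (Fin n) ℤ) : Matrix (Fin n) (Fin n) ℤ) * Matrix.of M *
      (γ' : Matrix (Fin n) (Fin n) ℤ)
  refine ⟨N i k, ?_⟩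
  have hM' : (Matrix.of M).map (Int.castRingHom ℝ)
      = ((g⁻¹ : G n) : Matrix (Fin n) (Fin n) ℝ) * Matrix.diagonal t *
        (g : Matrix (Fin n) (Fin n) ℝ) := by
    ext i k; exact hM i k
  have : N.map (Int.castRingHom ℝ) =
      (((g * Matrix.SpecialLinearGroup.map (Int.castRingHom ℝ) γ')⁻¹ : G n)
        : Matrix (Fin n) (Fin n) ℝ) * Matrix.diagonal t *
      ((g * Matrix.SpecialLinearGroup.map (Int.castRingHom ℝ) γ' : G n)
        : Matrix (Fin n) (Fin n) ℝ) := by
    simp only [N, Matrix.map_mul, hM', mul_inv_rev, ← map_inv,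
      Matrix.SpecialLinearGroup.coe_mul]
    simp only [Matrix.mul_assoc]
    rfl
  exact congrFun (congrFun this i) k

/-- The closed subset of `X n` cut out by `badSet`. -/
def trap (P : ℤ[X]) : Set (X n) := (fun g : G n => (g : X n)) '' badSet P

lemma isClosed_trap (P : ℤ[X]) (hP : P ≠ 0) : IsClosed (trap (n := n) P) := by
  rw [← QuotientGroup.isOpenQuotientMap_mk.isQuotientMap.isClosed_preimage]
  have : (fun g : G n => (g : X n)) ⁻¹' trap P = badSet P := by
    ext g
    constructor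
    · rintro ⟨g', hg', he⟩
      have hm : g'⁻¹ * g ∈ gammaZ n := QuotientGroup.eq.1 he
      have := badSet_mul_right P hm hg'
      rwa [mul_inv_cancel_left] at this
    · exact fun hg => ⟨g, hg, rfl⟩
  exact this ▸ isClosed_badSet P hP

lemma one_notMem_trap (hn : 1 ≤ n) (P : ℤ[X]) (hP : ∀ k : ℤ, aeval (k : ℝ) P ≠ 0) :
    ((1 : G n) : X n) ∉ trap P := by
  rintro ⟨g, hg, he⟩
  have hm : g⁻¹ * 1 ∈ gammaZ n := QuotientGroup.eq.1 he
  have h1 := badSet_mul_right P hm hg
  rw [mul_inv_cancel_left] at h1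
  obtain ⟨t, ht, h⟩ := h1
  obtain ⟨k, hk⟩ := h ⟨0, hn⟩ ⟨0, hn⟩
  simp at hk
  exact hP k (hk ▸ ht _)

lemma packet_subset_trap (P : ℤ[X]) (hm : P.Monic) (K : Type) [Field K] [NumberField K]
    (σ : Fin n ≃ (K →+* ℝ)) (x : K) (hx : aeval x P = 0) : packet K σ ⊆ trap P := by
  rintro y ⟨g, hg, I, -, c, -, w, -, u, -, hlat⟩
  refine ⟨g, ⟨fun j => σ j x, fun j => ?_, ?_⟩, hg⟩
  · have := aeval_algHom_apply (σ j).toIntAlgHom x P
    rw [hx, map_zero] at this
    exact this
  set T := Matrix.diagonal fun j => σ j x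
  have hcol : ∀ k : Fin n, ∃ m : Fin n → ℤ,
      Matrix.mulVec (g : Matrix (Fin n) (Fin n) ℝ) (fun i => (m i : ℝ))
        = fun j => σ j x * (g : Matrix (Fin n) (Fin n) ℝ) j k := by
    intro k
    have hk : (fun j => (g : Matrix (Fin n) (Fin n) ℝ) j k) ∈ latticeOf g := by
      refine ⟨Pi.single k 1, ?_⟩
      have : (fun i => ((Pi.single k (1 : ℤ) : Fin n → ℤ) i : ℝ)) = Pi.single k 1 := by
        funext i; simp [Pi.single_apply]
      simp only [this, Matrix.mulVec_single_one]
      rfl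
    rw [hlat] at hk
    obtain ⟨a, haI, ha⟩ := hk
    have hxa : x * a ∈ I := by
      have hint : IsIntegral ℤ x := ⟨P, hm, hx⟩
      have h2 := (I : Submodule (𝓞 K) K).smul_mem ⟨x, hint⟩ haI
      exact h2
    have h3 : (fun j => c * w j * Real.exp (u j) * σ j (x * a)) ∈ latticeOf g :=
      hlat ▸ ⟨x * a, hxa, rfl⟩
    obtain ⟨m, hm⟩ := h3
    refine ⟨m, hm.trans (funext fun j => ?_)⟩
    rw [congrFun ha j, map_mul]
    ring
  choose m hm' using hcol
  intro i k
  refine ⟨m k i, ?_⟩
  let Mz : Matrix (Fin n) (Fin n) ℝ := Matrix.of fun a b => ((m b a : ℤ) : ℝ)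
  have h1 : (g : Matrix (Fin n) (Fin n) ℝ) * Mz = T * (g : Matrix (Fin n) (Fin n) ℝ) := by
    ext j b
    rw [Matrix.diagonal_mul]
    exact congrFun (hm' b) j
  have h2 : Mz = ((g⁻¹ : G n) : Matrix (Fin n) (Fin n) ℝ) * T
      * (g : Matrix (Fin n) (Fin n) ℝ) := by
    rw [mul_assoc, ← h1, ← mul_assoc, ← Matrix.SpecialLinearGroup.coe_mul, inv_mul_cancel,
      Matrix.SpecialLinearGroup.coe_one, one_mul]
  exact congrFun (congrFun h2 i) k

lemma nonempty_equiv_embeddings (K : Type) [Field K] [NumberField K] [IsTotallyReal K]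
    (h : finrank ℚ K = n) : Nonempty (Fin n ≃ (K →+* ℝ)) := by
  let e : (K →+* ℝ) → (K →+* ℂ) := fun φ => Complex.ofRealHom.comp φ
  have he : Function.Bijective e := by
    refine ⟨fun a b hab => RingHom.ext fun z => Complex.ofReal_injective
      (RingHom.congr_fun hab z), fun φ => ⟨(IsTotallyReal.complexEmbedding_isReal φ).embedding,
      RingHom.ext fun z => ?_⟩⟩
    exact ComplexEmbedding.IsReal.coe_embedding_apply (IsTotallyReal.complexEmbedding_isReal φ) z
  let E := Equiv.ofBijective e he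
  have : Fintype (K →+* ℝ) := Fintype.ofEquiv _ E.symm
  refine ⟨(Fintype.equivFinOfCardEq ?_).symm⟩
  rw [Fintype.card_congr E, NumberField.Embeddings.card, h]

lemma packet_nonempty (hn : 1 ≤ n) (K : Type) [Field K] [NumberField K] (h : finrank ℚ K = n)
    (σ : Fin n ≃ (K →+* ℝ)) : (packet K σ).Nonempty := by
  classical
  have hcard : Fintype.card (Free.ChooseBasisIndex ℤ (𝓞 K)) = n := by
    rw [← finrank_eq_card_chooseBasisIndex, RingOfIntegers.rank, h]
  let e := Fintype.equivFinOfCardEq hcard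
  let b := (RingOfIntegers.basis K).reindex e
  let β := (integralBasis K).reindex e
  have hβ : ∀ k, β k = ((b k : 𝓞 K) : K) := by
    intro k; simp [β, b, integralBasis_apply]
  let M : Matrix (Fin n) (Fin n) ℝ := Matrix.of fun j k => σ j ((b k : 𝓞 K) : K)
  have hM : M.det ≠ 0 := by
    intro h0
    obtain ⟨v, hv0, hv⟩ := Matrix.exists_vecMul_eq_zero_iff.2 h0
    apply hv0
    have hzero : ∑ j, v j • (fun z : K => σ j z) = 0 := by
      funext z
      simp only [Finset.sum_apply, Pi.smul_apply, smul_eq_mul, Pi.zero_apply]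
      rw [← β.sum_repr z]
      simp only [map_sum, map_rat_smul, Finset.mul_sum, mul_smul_comm]
      rw [Finset.sum_comm]
      refine Finset.sum_eq_zero fun k _ => ?_
      rw [← Finset.smul_sum]
      have := congrFun hv k
      simp only [Matrix.vecMul, dotProduct, M, Matrix.of_apply, Pi.zero_apply] at this
      simp only [hβ k, this, smul_zero]
    have hli : LinearIndependent ℝ (fun j => (fun z : K => σ j z)) :=
      (linearIndependent_monoidHom K ℝ).comp (fun j => ((σ j : K →+* ℝ) : K →* ℝ))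
        fun a b hab => σ.injective (RingHom.ext fun z => DFunLike.congr_fun hab z)
    exact funext fun j => Fintype.linearIndependent_iff.1 hli v hzero j
  obtain ⟨c, hc, hcn⟩ : ∃ c : ℝ, 0 < c ∧ c ^ n = |M.det|⁻¹ := by
    refine ⟨(|M.det|⁻¹) ^ ((n : ℝ)⁻¹), by positivity, ?_⟩
    exact Real.rpow_inv_natCast_pow (by positivity) (by omega)
  let s : ℝ := if 0 < M.det then 1 else -1
  let w : Fin n → ℝ := Function.update (fun _ => 1) ⟨0, hn⟩ s
  have hsM : s * M.det = |M.det| := by
    simp only [s]; split_ifs with hp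
    · rw [abs_of_pos hp, one_mul]
    · rw [abs_of_nonpos (not_lt.1 hp)]; ring
  let A : Matrix (Fin n) (Fin n) ℝ := Matrix.diagonal (fun j => c * w j) * M
  have hA : A.det = 1 := by
    simp only [A, Matrix.det_mul, Matrix.det_diagonal, Finset.prod_mul_distrib, Finset.prod_const,
      Finset.card_univ, Fintype.card_fin]
    rw [show ∏ j, w j = s by simp [w, Finset.prod_update_of_mem], hcn, mul_assoc, hsM,
      inv_mul_cancel₀ (abs_ne_zero.2 hM)]
  refine ⟨QuotientGroup.mk (⟨A, hA⟩ : G n), ⟨A, hA⟩, rfl, 1, one_ne_zero, c, hc, w, fun j => ?_,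
    fun _ => 0, by simp, ?_⟩
  · by_cases hj : j = ⟨0, hn⟩
    · subst hj; simp only [w, Function.update_self, s]; split_ifs <;> simp
    · simp [w, hj]
  · have key : ∀ k : Fin n → ℤ, Matrix.mulVec A (fun i => (k i : ℝ))
        = fun j => c * w j * Real.exp 0 * σ j ((∑ i, k i • b i : 𝓞 K) : K) := by
      intro k
      funext j
      simp only [A, ← Matrix.mulVec_mulVec, Matrix.mulVec_diagonal, Real.exp_zero, mul_one]
      congr 1
      simp only [Matrix.mulVec, dotProduct, M, Matrix.of_apply, map_sum, zsmul_eq_mul]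
      refine Finset.sum_congr rfl fun i _ => ?_
      simp [mul_comm]
    ext v
    constructor
    · rintro ⟨k, rfl⟩
      exact ⟨((∑ i, k i • b i : 𝓞 K) : K), (FractionalIdeal.mem_one_iff _).2 ⟨_, rfl⟩, key k⟩
    · rintro ⟨a, ha, rfl⟩
      obtain ⟨z, rfl⟩ := (FractionalIdeal.mem_one_iff _).1 ha
      refine ⟨fun i => b.repr z i, ?_⟩
      simp only
      rw [key, b.sum_repr]

lemma invariant_pos_of_isOpen {m : Measure (X n)} [IsProbabilityMeasure m] (hm : IsInvariant m)
    {U : Set (X n)} (hU : IsOpen U) (hne : U.Nonempty) : 0 < m U := by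
  by_contra h
  have h0 : m U = 0 := by simpa using h
  obtain ⟨D, hDc, hDd⟩ := TopologicalSpace.exists_countable_dense (G n)
  have hcov : (Set.univ : Set (X n)) ⊆ ⋃ h ∈ D, (fun x => h • x) ⁻¹' U := by
    intro x _
    obtain ⟨g, rfl⟩ := QuotientGroup.mk_surjective x
    obtain ⟨u, hu⟩ := hne
    obtain ⟨g', rfl⟩ := QuotientGroup.mk_surjective u
    have hV : IsOpen {h : G n | h • (g : X n) ∈ U} := by
      have : Continuous fun h : G n => ((h * g : G n) : X n) :=
        QuotientGroup.continuous_mk.comp (continuous_id.mul continuous_const)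
      exact hU.preimage this
    obtain ⟨h, hhV, hhD⟩ := hDd.inter_open_nonempty _ hV
      ⟨g' * g⁻¹, by
        show ((g' * g⁻¹ * g : G n) : X n) ∈ U
        rwa [inv_mul_cancel_right]⟩
    exact Set.mem_biUnion hhD hhV
  have h2 : m (⋃ h ∈ D, (fun x => h • x) ⁻¹' U) = 0 :=
    (measure_biUnion_null_iff hDc).2 fun h _ => by rw [hm h U hU.measurableSet, h0]
  have := measure_mono (μ := m) hcov
  rw [measure_univ, h2] at this
  exact one_ne_zero (le_antisymm this bot_le)

/-- Every composite degree has a sequence of maximal orders whose packets do not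
equidistribute. -/
theorem packets_not_equidistributed (n : ℕ) (hn : 4 ≤ n) (hnp : ¬ n.Prime) :
    ∃ (K : ℕ → Type) (_ : ∀ i, Field (K i)) (_ : ∀ i, NumberField (K i)),
      (∀ i, IsTotallyReal (K i) ∧ finrank ℚ (K i) = n ∧
        Nonempty (Fin n ≃ (K i →+* ℝ))) ∧
      Filter.Tendsto (fun i => |discr (K i)|) Filter.atTop Filter.atTop ∧
      (∀ i (σ : Fin n ≃ (K i →+* ℝ)), (packet (K i) σ).Nonempty) ∧
      ∃ f : X n → ℝ, Continuous f ∧ HasCompactSupport f ∧
        (∀ x, f x ∈ Set.Icc (0 : ℝ) 1) ∧ (∃ x, f x = 1) ∧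
        (∀ i (σ : Fin n ≃ (K i →+* ℝ)), ∀ x ∈ packet (K i) σ, f x = 0) ∧
        (∀ m : Measure (X n), IsProbabilityMeasure m → IsInvariant m → 0 < ∫ x, f x ∂m) ∧
        (∀ (σ : ∀ i, Fin n ≃ (K i →+* ℝ)) (μ : ℕ → Measure (X n)),
          (∀ i, IsProbabilityMeasure (μ i) ∧ μ i (packet (K i) (σ i))ᶜ = 0) →
          ∀ m : Measure (X n), IsProbabilityMeasure m → IsInvariant m →
            ¬ Filter.Tendsto (fun i => ∫ x, f x ∂μ i) Filter.atTop (nhds (∫ x, f x ∂m))) := by
  obtain ⟨d, hd, K, iK, iKn, hK, hdisc, hroot⟩ := exists_family n hn hnp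
  refine ⟨K, iK, iKn, fun i => ⟨(hK i).1, (hK i).2, ?_⟩, hdisc,
    fun i σ => packet_nonempty (by omega) (K i) (hK i).2 σ, ?_⟩
  · have := (hK i).1
    exact nonempty_equiv_embeddings (K i) (hK i).2
  have hmon := gPoly_monic 2 (by omega : 1 ≤ d)
  have hC := isClosed_trap (n := n) (gPoly 2 d) hmon.ne_zero
  have hone := one_notMem_trap (n := n) (by omega) (gPoly 2 d) (gPoly_two_no_int_root hd)
  obtain ⟨f, hf1, hf0, hfc, hfI⟩ := exists_continuous_one_zero_of_isCompact
    (isCompact_singleton (x := ((1 : G n) : X n))) hC (Set.disjoint_singleton_left.2 hone)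
  have hvan : ∀ i (σ : Fin n ≃ (K i →+* ℝ)), ∀ x ∈ packet (K i) σ, f x = 0 := by
    intro i σ x hx
    obtain ⟨z, hz⟩ := hroot i
    exact hf0 (packet_subset_trap _ hmon (K i) σ z hz hx)
  have hpos : ∀ m : Measure (X n), IsProbabilityMeasure m → IsInvariant m →
      0 < ∫ x, f x ∂m := by
    intro m _ hm
    refine (integral_pos_iff_support_of_nonneg (fun x => (hfI x).1)
      (f.continuous.integrable_of_hasCompactSupport hfc)).2 ?_
    exact invariant_pos_of_isOpen hm f.continuous.isOpen_support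
      ⟨_, by rw [Function.mem_support, hf1 rfl]; exact one_ne_zero⟩
  refine ⟨f, f.continuous, hfc, hfI, ⟨_, hf1 rfl⟩, hvan, hpos, ?_⟩
  intro σ μ hμ m hp hm htend
  have hz : ∀ i, ∫ x, f x ∂μ i = 0 := by
    intro i
    apply integral_eq_zero_of_ae
    refine measure_mono_null ?_ (hμ i).2
    intro x hx hmem
    exact hx (hvan i (σ i) x hmem)
  simp only [hz] at htend
  exact (hpos m hp hm).ne (tendsto_nhds_unique tendsto_const_nhds htend)

end Vale.Agent.P007
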